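import Vale.Agent.P042.Upper.Main

namespace Vale.Agent.Results.P042.IntersectiveSqrtLogBound

open Polynomial

/-- For every intersective polynomial `h` of degree at least two, a subset of `[1, N]` without
nonzero differences `h (n)`, `n ≥ 1`, has at most `C N exp (-c (log N) ^ (1/2))` elements. -/
theorem result : ∀ h : ℤ[X], 2 ≤ h.natDegree → 0 < h.leadingCoeff →
    (∀ q : ℕ, 1 ≤ q → ∃ t : ℤ, (q : ℤ) ∣ h.eval t) →
    ∃ c C : ℝ, 0 < c ∧ ∀ N : ℕ, ∀ A : Finset ℤ, A ⊆ Finset.Icc 1 (N : ℤ) →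
      (∀ a ∈ A, ∀ b ∈ A, ∀ n : ℕ, 1 ≤ n → h.eval (n : ℤ) ≠ 0 → a - b ≠ h.eval (n : ℤ)) →
      (A.card : ℝ) ≤ C * N * Real.exp (-c * Real.sqrt (Real.log N)) :=
  fun h hk hpos hint => Vale.Agent.P042.Upper.upper h hk hpos hint

end Vale.Agent.Results.P042.IntersectiveSqrtLogBound
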