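import Vale.Agent.P042.Odd.Main

open Finset Polynomial

namespace Vale.Agent.Results.P042.OddPowerSaving

/-- Power saving for every polynomial that becomes odd after a polynomial substitution. -/
theorem result : ∀ h : ℤ[X], 1 ≤ h.natDegree → 0 < h.leadingCoeff →
    (∃ φ : ℤ[X], 1 ≤ φ.natDegree ∧ 0 < φ.leadingCoeff ∧
      ∀ x : ℤ, (h.comp φ).eval (-x) = -(h.comp φ).eval x) →
    ∃ c C : ℝ, 0 < c ∧ ∀ (N : ℕ) (A : Finset ℕ), A ⊆ Finset.Icc 1 N →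
      (∀ a ∈ A, ∀ b ∈ A, ∀ n : ℕ, 1 ≤ n → h.eval (n : ℤ) ≠ 0 →
        (a : ℤ) - (b : ℤ) ≠ h.eval (n : ℤ)) →
      (A.card : ℝ) ≤ C * (N : ℝ) ^ (1 - c) := by
  intro h hk hlead ⟨φ, hφ, hφlead, hodd⟩
  obtain ⟨n₁, hn₁⟩ := Vale.Agent.P042.Odd.exists_threshold hφ hφlead
  have hd : 1 ≤ (h.comp φ).natDegree := by
    rw [natDegree_comp]
    exact Nat.mul_pos hk hφ
  have hl : 0 < (h.comp φ).leadingCoeff := by
    rw [leadingCoeff_comp (by omega)]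
    exact mul_pos hlead (pow_pos hφlead _)
  obtain ⟨c, C, hc, hC⟩ := Vale.Agent.P042.Odd.odd_saving (h.comp φ) hodd hd hl n₁
  refine ⟨c, C, hc, fun N A hA hav => hC N A hA fun a ha b hb n hn hne => ?_⟩
  have h1 := hn₁ n hn
  rw [eval_comp] at hne ⊢
  have h2 : ((φ.eval (n : ℤ)).toNat : ℤ) = φ.eval (n : ℤ) := Int.toNat_of_nonneg (by omega)
  rw [← h2] at hne ⊢
  exact hav a ha b hb _ (by omega) hne

end Vale.Agent.Results.P042.OddPowerSaving
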