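import Vale.Agent.P042.Cert

namespace Vale.Agent.Results.P042.QuadraticAboveThreeQuarters

open Vale.Agent.P042

/-- For every `h(x) = a (x + b) ^ 2`, subsets of `[1, N]` of size `≫ N ^ 0.7569` avoid the
nonzero values of `h` as differences. -/
theorem result : ∀ (a : ℕ) (b : ℤ), 0 < a → ∃ c : ℝ, 0 < c ∧ ∀ N : ℕ, 1 ≤ N →
    ∃ A : Finset ℕ, A ⊆ Finset.Icc 1 N ∧
      (∀ x ∈ A, ∀ y ∈ A, ∀ n : ℕ, 1 ≤ n → (a : ℤ) * ((n : ℤ) + b) ^ 2 ≠ 0 →
        (x : ℤ) - (y : ℤ) ≠ (a : ℤ) * ((n : ℤ) + b) ^ 2) ∧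
      c * (N : ℝ) ^ ((7569 : ℝ) / 10000) ≤ (A.card : ℝ) := by
  intro a b ha
  have hpow : (root ^ 2 * height) ^ (3 * 2500 + 69) ≤ total ^ (4 * 2500) :=
    exponent_gain slack small_base
  obtain ⟨c, hc, hA⟩ :=
    all_N root_height.1 root_height.2 ranked_all (by norm_num : 0 < 4 * 2500) hpow
  have har : (0 : ℝ) < a := by exact_mod_cast ha
  have hA' : ∀ N : ℕ, 1 ≤ N → ∃ A : Finset ℕ, A ⊆ Finset.Icc 1 N ∧
      (∀ x ∈ A, ∀ y ∈ A, ∀ m : ℕ, 1 ≤ m → x ≠ y + m ^ 2) ∧
      c * (N : ℝ) ^ ((7569 : ℝ) / 10000) ≤ (A.card : ℝ) := by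
    intro N hN
    obtain ⟨A, h1, h2, h3⟩ := hA N hN
    exact ⟨A, h1, h2, by norm_num at h3 ⊢; exact h3⟩
  clear hA hpow
  have hg0 : (0 : ℝ) ≤ (7569 : ℝ) / 10000 := by norm_num
  revert hA' hg0
  generalize (7569 : ℝ) / 10000 = g
  intro hA hg0
  refine ⟨min c 1 / (2 * (a : ℝ)) ^ g, by positivity, fun N hN => ?_⟩
  rcases Nat.lt_or_ge N a with hlt | hge
  · refine ⟨{1}, by simpa using hN, fun x hx y hy n _ hne => ?_, ?_⟩
    · simp only [Finset.mem_singleton] at hx hy
      subst hx hy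
      simpa using hne.symm
    · rw [div_mul_eq_mul_div, div_le_iff₀ (by positivity), Finset.card_singleton, Nat.cast_one,
        one_mul]
      calc min c 1 * (N : ℝ) ^ g ≤ 1 * (N : ℝ) ^ g :=
            mul_le_mul_of_nonneg_right (min_le_right _ _) (by positivity)
        _ ≤ _ := by
            rw [one_mul]
            refine Real.rpow_le_rpow (by positivity) ?_ hg0
            have : (N : ℝ) ≤ a := by exact_mod_cast hlt.le
            linarith
  · have hm1 : 1 ≤ N / a := (Nat.one_le_div_iff ha).2 hge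
    obtain ⟨A, hA1, hA2, hA3⟩ := hA (N / a) hm1
    refine ⟨A.image (fun z => a * z), ?_, ?_, ?_⟩
    · intro x hx
      obtain ⟨z, hz, rfl⟩ := Finset.mem_image.1 hx
      obtain ⟨h1, h2⟩ := Finset.mem_Icc.1 (hA1 hz)
      refine Finset.mem_Icc.2 ⟨Nat.one_le_iff_ne_zero.2 (Nat.mul_ne_zero ha.ne' (by omega)), ?_⟩
      exact (Nat.mul_le_mul_left a h2).trans (Nat.mul_div_le N a)
    · intro x hx y hy n _ hne he
      obtain ⟨z, hz, rfl⟩ := Finset.mem_image.1 hx
      obtain ⟨w, hw, rfl⟩ := Finset.mem_image.1 hy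
      set t : ℤ := (n : ℤ) + b
      have hcancel : (z : ℤ) - (w : ℤ) = t ^ 2 := by
        apply mul_left_cancel₀ (show (a : ℤ) ≠ 0 by omega)
        push_cast at he
        linarith
      have hm : 1 ≤ t.natAbs := by
        rcases Nat.eq_zero_or_pos t.natAbs with h0 | h0
        · exact absurd (by rw [Int.natAbs_eq_zero.1 h0]; ring) hne
        · exact h0
      refine hA2 z hz w hw t.natAbs hm ?_
      have hsq : ((t.natAbs : ℤ)) ^ 2 = t ^ 2 := by rw [Int.natCast_natAbs, sq_abs]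
      zify
      push_cast at hsq ⊢
      linarith
    · rw [Finset.card_image_of_injective _ (fun z w h => Nat.eq_of_mul_eq_mul_left ha h)]
      have hN2 : (N : ℝ) ≤ 2 * (a : ℝ) * ((N / a : ℕ) : ℝ) := by
        have h1 : N ≤ 2 * a * (N / a) := by
          have h2 := Nat.div_add_mod N a
          have h3 := Nat.mod_lt N ha
          have h4 : a * 1 ≤ a * (N / a) := Nat.mul_le_mul_left a hm1
          calc N = a * (N / a) + N % a := h2.symm
            _ ≤ a * (N / a) + a * (N / a) := by omega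
            _ = 2 * a * (N / a) := by ring
        exact_mod_cast h1
      refine le_trans ?_ hA3
      rw [div_mul_eq_mul_div, div_le_iff₀ (by positivity)]
      calc min c 1 * (N : ℝ) ^ g
          ≤ c * (2 * (a : ℝ) * ((N / a : ℕ) : ℝ)) ^ g :=
            mul_le_mul (min_le_left _ _) (Real.rpow_le_rpow (by positivity) hN2 hg0)
              (by positivity) hc.le
        _ = _ := by
            rw [Real.mul_rpow (by positivity) (Nat.cast_nonneg _)]
            ring

end Vale.Agent.Results.P042.QuadraticAboveThreeQuarters
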