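import Vale.Agent.P042.Loc.Saving
import Vale.Agent.P042.Loc.General

open Finset Polynomial

namespace Vale.Agent.Results.P042.SimpleRootPowerSaving

/-- Power saving for polynomials with a simple root in every `ℤ_[p]`, in particular for every
intersective polynomial without repeated roots. -/
theorem result :
    (∀ h : ℤ[X], 2 ≤ h.natDegree → 0 < h.leadingCoeff →
      (∀ (p : ℕ) [Fact p.Prime], ∃ z : ℤ_[p],
        Polynomial.aeval z h = 0 ∧ Polynomial.aeval z h.derivative ≠ 0) →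
      ∃ c C : ℝ, 0 < c ∧ ∀ (N : ℕ) (A : Finset ℕ), A ⊆ Finset.Icc 1 N →
        (∀ a ∈ A, ∀ b ∈ A, ∀ n : ℕ, 1 ≤ n → h.eval (n : ℤ) ≠ 0 →
          (a : ℤ) - (b : ℤ) ≠ h.eval (n : ℤ)) →
        (A.card : ℝ) ≤ C * (N : ℝ) ^ (1 - c)) ∧
    (∀ h : ℤ[X], 2 ≤ h.natDegree → 0 < h.leadingCoeff →
      Squarefree (h.map (Int.castRingHom ℚ)) →
      (∀ q : ℕ, 1 ≤ q → ∃ t : ℤ, (q : ℤ) ∣ h.eval t) →
      ∃ c C : ℝ, 0 < c ∧ ∀ (N : ℕ) (A : Finset ℕ), A ⊆ Finset.Icc 1 N →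
        (∀ a ∈ A, ∀ b ∈ A, ∀ n : ℕ, 1 ≤ n → h.eval (n : ℤ) ≠ 0 →
          (a : ℤ) - (b : ℤ) ≠ h.eval (n : ℤ)) →
        (A.card : ℝ) ≤ C * (N : ℝ) ^ (1 - c)) := by
  constructor
  · intro h hk hlead hz
    have hr := Vale.Agent.P042.Loc.padic_roots h (by rintro rfl; simp at hlead) hz
    exact Vale.Agent.P042.Loc.local_saving h (by omega) hlead hr
      (Vale.Agent.P042.Loc.simple_sym h hk hr)
  · intro h hk hlead hsq hint
    have hr := Vale.Agent.P042.Loc.squarefree_roots h hsq hint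
    exact Vale.Agent.P042.Loc.local_saving h (by omega) hlead hr
      (Vale.Agent.P042.Loc.simple_sym h hk hr)

end Vale.Agent.Results.P042.SimpleRootPowerSaving
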